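import Vale.Agent.P310Z.Defs
import Vale.Agent.Lib.PolyTime.TM2
import Vale.Agent.Lib.PolyTime.Run

/-! Stack programs are compiled to random access machines (all three models). -/

set_option linter.all false

namespace Vale.Agent.Q310

open Function Vale.Agent.P310Z Vale.Agent.Lib.PolyTime

namespace RC

/-- the number `a` codes the word `w` in the heap cells `B ≤ c < h` -/
def Rep (B : ℕ) (R : ℕ → ℕ) (h : ℕ) : ℕ → List Bool → Prop
  | a, [] => a = 0
  | a, b :: w => ∃ c, B ≤ c ∧ c < h ∧ a = 2 * c + b.toNat ∧ Rep B R h (R c) w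

theorem Rep.frame {B h h' : ℕ} {R R' : ℕ → ℕ} (e : ∀ c, B ≤ c → c < h → R' c = R c)
    (hh : h ≤ h') : ∀ {w : List Bool} {a : ℕ}, Rep B R h a w → Rep B R' h' a w
  | [], _, r => r
  | _ :: _, _, ⟨c, h1, h2, h3, h4⟩ =>
    ⟨c, h1, h2.trans_le hh, h3, by rw [e c h1 h2]; exact Rep.frame e hh h4⟩

theorem Rep.le {B h : ℕ} {R : ℕ → ℕ} : ∀ {w : List Bool} {a : ℕ}, Rep B R h a w → a ≤ 2 * h
  | [], _, r => by rw [show _ = 0 from r]; omega
  | b :: _, _, ⟨c, _, h2, h3, _⟩ => by have := b.toNat_le; omega

/-- the registers represent the stacks -/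
structure Inv (N : ℕ) (R : ℕ → ℕ) (σ : ℕ → Word) (h : ℕ) : Prop where
  hp : R 1 = h
  one : R 2 = 1
  base : N + 4 ≤ h
  stk : ∀ i < N, Rep (N + 4) R h (R (4 + i)) (σ i)

theorem Inv.upd {N h : ℕ} {R : ℕ → ℕ} {σ : ℕ → Word} (I : Inv N R σ h) {a : ℕ}
    (ha : a = 0 ∨ a = 3) (v : ℕ) : Inv N (update R a v) σ h where
  hp := by rw [update_of_ne (by omega), I.hp]
  one := by rw [update_of_ne (by omega), I.one]
  base := I.base
  stk i hi := by
    rw [update_of_ne (by omega)]
    exact (I.stk i hi).frame (fun c h1 _ => update_of_ne (by omega) _ _) le_rfl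

theorem Inv.set {N h i v : ℕ} {R : ℕ → ℕ} {σ : ℕ → Word} (I : Inv N R σ h) (hi : i < N)
    {w : Word} (r : Rep (N + 4) R h v w) : Inv N (update R (4 + i) v) (update σ i w) h where
  hp := by rw [update_of_ne (by omega), I.hp]
  one := by rw [update_of_ne (by omega), I.one]
  base := I.base
  stk j hj := by
    have f : ∀ c, N + 4 ≤ c → c < h → update R (4 + i) v c = R c :=
      fun c h1 _ => update_of_ne (by omega) _ _
    by_cases e : j = i
    · subst e
      rw [update_self, update_self]
      exact r.frame f le_rfl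
    · rw [update_of_ne (by omega), update_of_ne e]
      exact (I.stk j hj).frame f le_rfl

/-- the list `L` stands in the program from line `o` on -/
def At (P : List Instr) : ℕ → List Instr → Prop
  | _, [] => True
  | o, a :: L => P[o]? = some a ∧ At P (o + 1) L

theorem at_append {P : List Instr} : ∀ {L L' : List Instr} {o : ℕ},
    At P o (L ++ L') ↔ At P o L ∧ At P (o + L.length) L'
  | [], _, _ => by simp [At]
  | a :: L, L', o => by
    rw [List.cons_append, At, At, at_append, List.length_cons, and_assoc,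
      show o + 1 + L.length = o + (L.length + 1) by omega]

theorem at_self : ∀ (L Q : List Instr), At (Q ++ L) Q.length L
  | [], _ => trivial
  | a :: L, Q => ⟨by simp, by simpa using at_self L (Q ++ [a])⟩

/-- push the bit in register `0` on stack `i` -/
def pushR (i : ℕ) : List Instr :=
  [.store 1 (4 + i), .op .add (4 + i) 1 1, .op .add (4 + i) (4 + i) 0, .op .add 1 1 2]

/-- the length of the code -/
def len : Prog → ℕ
  | .skip => 0
  | .push _ _ => 5
  | .pop _ => 2
  | .query _ _ => 5
  | .seq p q => len p + len q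
  | .ite _ p q r => 3 + len r + 1 + len q + 1 + len p
  | .loop _ p => 1 + len p + 1

/-- the code of a program, placed at line `o` -/
def comp : Prog → ℕ → List Instr
  | .skip, _ => []
  | .push i b, _ => .const 0 b.toNat :: pushR i
  | .pop i, _ => [.op .shr 0 (4 + i) 2, .load (4 + i) 0]
  | .query _ j, _ => .const 0 false.toNat :: pushR j
  | .seq p q, o => comp p o ++ comp q (o + len p)
  | .ite i p q r, o =>
    .jz (4 + i) (o + 3 + len r + 1 + len q + 1) :: .op .land 0 (4 + i) 2 ::
      .jz 0 (o + 3 + len r + 1) :: (comp r (o + 3) ++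
        .goto (o + 3 + len r + 1 + len q + 1 + len p) :: (comp q (o + 3 + len r + 1) ++
          .goto (o + 3 + len r + 1 + len q + 1 + len p) :: comp p (o + 3 + len r + 1 + len q + 1)))
  | .loop i p, o => .jz (4 + i) (o + 1 + len p + 1) :: (comp p (o + 1) ++ [.goto o])

theorem length_comp : ∀ (p : Prog) (o : ℕ), (comp p o).length = len p
  | .skip, _ => rfl
  | .push _ _, _ => rfl
  | .pop _, _ => rfl
  | .query _ _, _ => rfl
  | .seq p q, o => by simp [comp, len, length_comp p, length_comp q]
  | .ite i p q r, o => by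
    simp only [comp, len, List.length_cons, List.length_append, length_comp p, length_comp q,
      length_comp r]
    omega
  | .loop i p, o => by
    simp only [comp, len, List.length_cons, List.length_append, length_comp p, List.length_nil]
    omega

theorem allows_comp (M : Model) : ∀ (p : Prog) (o : ℕ), ∀ a ∈ comp p o, M.Allows a
  | .skip, _ => by simp [comp]
  | .push _ _, _ => by cases M <;> simp [comp, pushR, Model.Allows]
  | .pop _, _ => by cases M <;> simp [comp, Model.Allows]
  | .query _ _, _ => by cases M <;> simp [comp, pushR, Model.Allows]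
  | .seq p q, o => by
    simp only [comp, List.forall_mem_append]
    exact ⟨allows_comp M p _, allows_comp M q _⟩
  | .ite i p q r, o => by
    simp only [comp, List.forall_mem_append, List.forall_mem_cons]
    refine ⟨?_, ?_, ?_, allows_comp M r _, ?_, allows_comp M q _, ?_, allows_comp M p _⟩ <;>
      cases M <;> simp [Model.Allows]
  | .loop i p, o => by
    simp only [comp, List.forall_mem_append, List.forall_mem_cons]
    refine ⟨?_, allows_comp M p _, ?_, ?_⟩ <;> cases M <;> simp [Model.Allows]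

section

variable (M : Model) (P : List Instr) (n : ℕ) (x : List Bool) (V : ℕ)

/-- from line `o` to line `o'`, at the cost of `s` steps -/
def Go (o : ℕ) (R : ℕ → ℕ) (o' : ℕ) (R' : ℕ → ℕ) (s : ℕ) : Prop :=
  ∀ τ, ∃ u τ', (step M P n x)^[u] ⟨o, R, τ⟩ = ⟨o', R', τ'⟩ ∧ τ' ≤ τ + s * (2 * V + 1)

variable {M P n x V}

theorem Go.refl (o : ℕ) (R : ℕ → ℕ) (s : ℕ) : Go M P n x V o R o R s :=
  fun τ => ⟨0, τ, rfl, Nat.le_add_right _ _⟩

theorem Go.trans {o o' o'' s s' s'' : ℕ} {R R' R'' : ℕ → ℕ} (g : Go M P n x V o R o' R' s)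
    (g' : Go M P n x V o' R' o'' R'' s') (h : s + s' ≤ s'') : Go M P n x V o R o'' R'' s'' := by
  intro τ
  obtain ⟨u, τ', e, l⟩ := g τ
  obtain ⟨u', τ'', e', l'⟩ := g' τ'
  refine ⟨u' + u, τ'', by rw [iterate_add_apply, e, e'], ?_⟩
  have := Nat.mul_le_mul_right (2 * V + 1) h
  rw [add_mul] at this
  omega

theorem size_le_self (a : ℕ) : Nat.size a ≤ a := Nat.size_le.2 Nat.lt_two_pow_self

theorem Go.one {o o' : ℕ} {R R' : ℕ → ℕ} {a : Instr} (h : P[o]? = some a)
    (hv : ∀ v ∈ a.operands R, v ≤ V) (e : a.next R o = o') (e' : a.regs (M.modulus n) x R = R') :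
    Go M P n x V o R o' R' 1 := by
  intro τ
  refine ⟨1, τ + M.cost R a, by simp [step, h, e, e'], ?_⟩
  have : ((a.operands R).map Nat.size).sum ≤ 2 * V := by
    have k : ∀ v ∈ a.operands R, Nat.size v ≤ V := fun v m => (size_le_self v).trans (hv v m)
    cases a <;> simp only [Instr.operands, List.forall_mem_cons, List.map_cons, List.map_nil,
      List.sum_cons, List.sum_nil] at k ⊢ <;> omega
  cases M <;> simp only [Model.cost] <;> omega

theorem Go.goto {o l : ℕ} {R : ℕ → ℕ} (h : P[o]? = some (.goto l)) : Go M P n x V o R l R 1 :=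
  Go.one h (by simp [Instr.operands]) rfl rfl

theorem Go.jz_zero {o i l : ℕ} {R : ℕ → ℕ} (h : P[o]? = some (.jz i l)) (e : R i = 0) :
    Go M P n x V o R l R 1 :=
  Go.one h (by simp [Instr.operands, e]) (by simp [Instr.next, e]) rfl

theorem Go.jz_pos {o i l : ℕ} {R : ℕ → ℕ} (h : P[o]? = some (.jz i l)) (e : R i ≠ 0)
    (b : R i ≤ V) : Go M P n x V o R (o + 1) R 1 :=
  Go.one h (by simp [Instr.operands, b]) (by simp [Instr.next, e]) rfl

variable (hm : ∀ a ≤ V, a % M.modulus n = a)
include hm

theorem Go.const {o i a : ℕ} {R : ℕ → ℕ} (h : P[o]? = some (.const i a)) (b : a ≤ V) :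
    Go M P n x V o R (o + 1) (update R i a) 1 :=
  Go.one h (by simp [Instr.operands, b]) rfl (by simp [Instr.regs, hm a b])

theorem Go.op {o i j l v : ℕ} {f : Op} {R : ℕ → ℕ} (h : P[o]? = some (.op f i j l))
    (b : R j ≤ V) (b' : R l ≤ V) (e : f.eval (M.modulus n) (R j) (R l) = v) (b'' : v ≤ V) :
    Go M P n x V o R (o + 1) (update R i v) 1 :=
  Go.one h (by simp [Instr.operands, b, b']) rfl (by simp [Instr.regs, e, hm v b''])

theorem Go.read {o i j : ℕ} {R : ℕ → ℕ} (h : P[o]? = some (.read i j)) (b : R j ≤ V)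
    (b' : 2 ≤ V) : Go M P n x V o R (o + 1) (update R i (inputAt x (R j))) 1 := by
  refine Go.one h (by simp [Instr.operands, b]) rfl ?_
  rw [Instr.regs, hm]
  unfold inputAt
  cases x[R j]? with
  | none => exact b'
  | some c => have := c.toNat_le; simp only; omega

theorem go_pushR {N i o h : ℕ} {R : ℕ → ℕ} {σ : ℕ → Word} {b : Bool} (A : At P o (pushR i))
    (hi : i < N) (I : Inv N R σ h) (e : R 0 = b.toNat) (hV : 2 * (h + 1) ≤ V) :
    ∃ R', Inv N R' (update σ i (b :: σ i)) (h + 1) ∧ R' 3 = R 3 ∧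
      Go M P n x V o R (o + 4) R' 4 := by
  obtain ⟨a1, a2, a3, a4, -⟩ := A
  have hb := b.toNat_le
  have hB := I.base
  have l := (I.stk i hi).le
  have g1 : Go M P n x V o R (o + 1) (update R h (R (4 + i))) 1 :=
    Go.one a1 (by simp [Instr.operands, I.hp]; omega) rfl
      (by rw [Instr.regs, I.hp, hm _ (by omega)])
  set R1 := update R h (R (4 + i)) with hR1
  have e1 : ∀ c < h, R1 c = R c := fun c hc => update_of_ne (by omega) _ _
  have g2 := Go.op (x := x) hm (R := R1) (v := 2 * h) a2 (by rw [e1 1 (by omega), I.hp]; omega)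
    (by rw [e1 1 (by omega), I.hp]; omega)
    (by rw [e1 1 (by omega), I.hp, Op.eval]; omega) (by omega)
  have g3 := Go.op (x := x) hm (R := update R1 (4 + i) (2 * h)) (v := 2 * h + b.toNat) a3
    (by rw [update_self]; omega)
    (by rw [update_of_ne (by omega), e1 0 (by omega)]; omega)
    (by rw [update_self, update_of_ne (by omega), e1 0 (by omega), e, Op.eval]) (by omega)
  rw [update_idem] at g3
  have g4 := Go.op (x := x) hm (R := update R1 (4 + i) (2 * h + b.toNat)) (v := h + 1) a4
    (by rw [update_of_ne (by omega), e1 1 (by omega), I.hp]; omega)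
    (by rw [update_of_ne (by omega), e1 2 (by omega), I.one]; omega)
    (by rw [update_of_ne (by omega), update_of_ne (by omega), e1 1 (by omega), e1 2 (by omega),
      I.hp, I.one, Op.eval]) (by omega)
  refine ⟨_, ?_, ?_, ((g1.trans g2 le_rfl).trans g3 le_rfl).trans g4 le_rfl⟩
  · rw [update_comm (by omega)]
    have I1 : Inv N (update R1 1 (h + 1)) σ (h + 1) := by
      refine ⟨update_self .., ?_, by omega, fun j hj => ?_⟩
      · rw [update_of_ne (by omega), e1 2 (by omega), I.one]
      · rw [update_of_ne (by omega), e1 _ (by omega)]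
        exact (I.stk j hj).frame
          (fun c h1 h2 => by rw [update_of_ne (by omega), e1 c h2]) (by omega)
    refine I1.set hi ⟨h, hB, by omega, rfl, ?_⟩
    rw [update_of_ne (by omega), hR1, update_self]
    exact (I.stk i hi).frame
      (fun c h1 h2 => by rw [update_of_ne (by omega), update_of_ne (by omega)]) (by omega)
  · rw [update_of_ne (by omega), update_of_ne (by omega), e1 3 (by omega)]

theorem go_push {N i o h : ℕ} {R : ℕ → ℕ} {σ : ℕ → Word} {b : Bool}
    (A : At P o (.const 0 b.toNat :: pushR i)) (hi : i < N) (I : Inv N R σ h)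
    (hV : 2 * (h + 1) ≤ V) :
    ∃ R' h', h' ≤ h + 1 ∧ Inv N R' (update σ i (b :: σ i)) h' ∧
      Go M P n x V o R (o + 5) R' (5 * 1) := by
  have hb := b.toNat_le
  obtain ⟨R', I', -, g⟩ := go_pushR (x := x) hm A.2 hi (I.upd (Or.inl rfl) b.toNat)
    (update_self ..) hV
  exact ⟨R', _, le_rfl, I', (Go.const hm A.1 (by omega)).trans g le_rfl⟩

theorem go_test {N i o h l l' : ℕ} {R : ℕ → ℕ} {σ : ℕ → Word} {b : Bool}
    (a1 : P[o]? = some (.jz (4 + i) l)) (a2 : P[o + 1]? = some (.op .land 0 (4 + i) 2))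
    (a3 : P[o + 1 + 1]? = some (.jz 0 l')) (hi : i < N) (I : Inv N R σ h)
    (e : (σ i).head? = some b) (hV : 2 * h ≤ V) :
    Go M P n x V o R (if b then o + 3 else l') (update R 0 b.toNat) 3 := by
  have r := I.stk i hi
  have l := r.le
  have hB := I.base
  obtain ⟨w, hw⟩ : ∃ w, σ i = b :: w := by
    cases h' : σ i with
    | nil => simp [h'] at e
    | cons c w => exact ⟨w, by simpa [h'] using e⟩
  rw [hw] at r
  obtain ⟨c, h1, h2, h3, -⟩ := r
  have hb := b.toNat_le
  have g1 : Go M P n x V o R (o + 1) R 1 := Go.jz_pos a1 (by omega) (by omega)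
  have g2 := Go.op (x := x) hm (R := R) (v := b.toNat) a2 (by omega) (by rw [I.one]; omega)
    (by rw [I.one, Op.eval, Nat.and_one_is_mod]; omega) (by omega)
  refine (g1.trans g2 le_rfl).trans (s' := 1) ?_ le_rfl
  cases b
  · exact Go.jz_zero a3 (update_self ..)
  · exact Go.jz_pos a3 (by simp) (by simp; omega)

theorem sim {N : ℕ} {p : Prog} {σ σ' : ℕ → Word} {t : ℕ} (E : Eval ∅ p σ t σ') :
    ToTM2.bounded N p → ∀ (o h : ℕ) (R : ℕ → ℕ), At P o (comp p o) → Inv N R σ h → 2 * (h + t) ≤ V →
      ∃ R' h', h' ≤ h + t ∧ Inv N R' σ' h' ∧ Go M P n x V o R (o + len p) R' (5 * t) := by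
  induction E with
  | skip s => exact fun _ o h R _ I _ => ⟨R, h, by omega, I, Go.refl _ _ _⟩
  | push s i b => exact fun hb o h R A I hV => go_push hm A hb I hV
  | pop s i =>
    intro hb o h R A I hV
    obtain ⟨a1, a2, -⟩ := A
    have r := I.stk i hb
    have l := r.le
    have hB := I.base
    have g1 := Go.op (x := x) hm (R := R) (v := R (4 + i) / 2) a1 (by omega)
      (by rw [I.one]; omega) (by rw [I.one, Op.eval, Nat.shiftRight_one]) (by omega)
    have I1 := I.upd (Or.inl rfl) (R (4 + i) / 2)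
    have r' : Rep (N + 4) (update R 0 (R (4 + i) / 2)) h
        (update R 0 (R (4 + i) / 2) (R (4 + i) / 2)) (s i).tail := by
      cases hs : s i with
      | nil =>
        rw [hs] at r
        rw [show R (4 + i) = 0 from r]
        exact update_self ..
      | cons b w =>
        rw [hs] at r
        obtain ⟨c, h1, h2, h3, h4⟩ := r
        have := b.toNat_le
        rw [show R (4 + i) / 2 = c by omega, update_of_ne (by omega)]
        exact h4.frame (fun c h1 _ => update_of_ne (by omega) _ _) le_rfl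
    have l' := r'.le
    refine ⟨_, h, by omega, I1.set hb r', g1.trans (s' := 1) ?_ (by omega)⟩
    refine Go.one a2 ?_ rfl (by rw [Instr.regs, update_self, hm _ (by omega)])
    simp only [Instr.operands, List.forall_mem_cons, update_self]
    exact ⟨by omega, by omega, by simp⟩
  | query_yes s i j h => exact absurd h (Set.notMem_empty _)
  | query_no s i j _ => exact fun hb o h R A I hV => go_push hm A hb.2 I hV
  | seq _ _ ih1 ih2 =>
    intro hb o h R A I hV
    rw [comp, at_append, length_comp] at A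
    obtain ⟨R1, h1, l1, I1, g1⟩ := ih1 hb.1 o h R A.1 I (by omega)
    obtain ⟨R2, h2, l2, I2, g2⟩ := ih2 hb.2 _ h1 R1 A.2 I1 (by omega)
    exact ⟨R2, h2, by omega, I2, by rw [len, ← add_assoc]; exact g1.trans g2 (by omega)⟩
  | @ite_nil p q r s s' t i e _ ih =>
    intro hb o h R A I hV
    simp only [comp, At, at_append, length_comp] at A
    obtain ⟨a1, -, -, -, -, -, -, A⟩ := A
    have r := I.stk i hb.1
    rw [e] at r
    obtain ⟨R1, h1, l1, I1, g1⟩ := ih hb.2.1 _ h R A I (by omega)
    refine ⟨R1, h1, by omega, I1, ?_⟩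
    rw [len, ← add_assoc, ← add_assoc, ← add_assoc, ← add_assoc, ← add_assoc]
    exact (Go.jz_zero a1 r).trans g1 (by omega)
  | @ite_false p q r s s' t i e _ ih =>
    intro hb o h R A I hV
    simp only [comp, At, at_append, length_comp] at A
    obtain ⟨a1, a2, a3, -, -, A, a4, -⟩ := A
    have g0 := go_test (x := x) hm a1 a2 a3 hb.1 I e (by omega)
    obtain ⟨R1, h1, l1, I1, g1⟩ := ih hb.2.2.1 _ h _ A (I.upd (Or.inl rfl) false.toNat) (by omega)
    refine ⟨R1, h1, by omega, I1, ?_⟩
    rw [len, ← add_assoc, ← add_assoc, ← add_assoc, ← add_assoc, ← add_assoc]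
    exact (g0.trans g1 le_rfl).trans (Go.goto a4) (by omega)
  | @ite_true p q r s s' t i e _ ih =>
    intro hb o h R A I hV
    simp only [comp, At, at_append, length_comp] at A
    obtain ⟨a1, a2, a3, A, a4, -⟩ := A
    have g0 := go_test (x := x) hm a1 a2 a3 hb.1 I e (by omega)
    obtain ⟨R1, h1, l1, I1, g1⟩ := ih hb.2.2.2 _ h _ A (I.upd (Or.inl rfl) true.toNat) (by omega)
    refine ⟨R1, h1, by omega, I1, ?_⟩
    rw [len, ← add_assoc, ← add_assoc, ← add_assoc, ← add_assoc, ← add_assoc]
    exact (g0.trans g1 le_rfl).trans (Go.goto a4) (by omega)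
  | @loop_stop p s i e =>
    intro hb o h R A I hV
    have r := I.stk i hb.1
    rw [e] at r
    refine ⟨R, h, by omega, I, ?_⟩
    rw [len, ← add_assoc, ← add_assoc]
    exact (Go.jz_zero A.1 r).trans (Go.refl _ _ 0) (by omega)
  | @loop_step p s s' s'' t t' i e _ _ ih1 ih2 =>
    intro hb o h R A I hV
    have A' := A
    simp only [comp, At, at_append, length_comp] at A'
    obtain ⟨a1, A1, a2, -⟩ := A'
    have r := I.stk i hb.1
    have l := r.le
    have hB := I.base
    have ne : R (4 + i) ≠ 0 := by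
      cases hs : s i with
      | nil => exact absurd hs e
      | cons b w =>
        rw [hs] at r
        obtain ⟨c, h1, h2, h3, -⟩ := r
        omega
    obtain ⟨R1, h1, l1, I1, g1⟩ := ih1 hb.2 _ h R A1 I (by omega)
    obtain ⟨R2, h2, l2, I2, g2⟩ := ih2 hb o h1 R1 A I1 (by omega)
    refine ⟨R2, h2, by omega, I2, ?_⟩
    exact (((Go.jz_pos a1 ne (by omega)).trans g1 le_rfl).trans (Go.goto a2) le_rfl).trans g2
      (by omega)

theorem go_count {N h : ℕ} {σ : ℕ → Word} (a2 : P[2]? = some (.read 0 3))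
    (a3 : P[3]? = some (.op .shr 0 0 2)) (a4 : P[4]? = some (.jz 0 6))
    (a5 : P[5]? = some (.goto 8)) (a6 : P[6]? = some (.op .add 3 3 2))
    (a7 : P[7]? = some (.goto 2)) (hV : x.length + 2 ≤ V) :
    ∀ (d : ℕ) (R : ℕ → ℕ), R 3 + d = x.length → Inv N R σ h →
      ∃ R', Inv N R' σ h ∧ R' 3 = x.length ∧ Go M P n x V 2 R 8 R' (5 * d + 4) := by
  have g : ∀ R : ℕ → ℕ, R 3 ≤ x.length → Inv N R σ h →
      Go M P n x V 2 R 4 (update R 0 (inputAt x (R 3) / 2)) 2 := fun R l I => by
    have b : inputAt x (R 3) ≤ 2 := by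
      unfold inputAt
      cases x[R 3]? with
      | none => exact le_rfl
      | some c => have := c.toNat_le; simp only; omega
    have g2 := Go.op (x := x) hm (R := update R 0 (inputAt x (R 3))) (v := inputAt x (R 3) / 2) a3
      (by rw [update_self]; omega) (by rw [update_of_ne (by omega), I.one]; omega)
      (by rw [update_self, update_of_ne (by omega), I.one, Op.eval, Nat.shiftRight_one])
      (by omega)
    rw [update_idem] at g2
    exact (Go.read hm a2 (by omega) (by omega)).trans g2 le_rfl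
  intro d
  induction d with
  | zero =>
    intro R e I
    have g1 := g R (by omega) I
    rw [show inputAt x (R 3) = 2 by simp [inputAt, show x[R 3]? = none by simp; omega]] at g1
    refine ⟨_, I.upd (Or.inl rfl) (2 / 2), by rw [update_of_ne (by omega)]; omega, ?_⟩
    exact (g1.trans (Go.jz_pos a4 (by simp) (by simp; omega)) le_rfl).trans (Go.goto a5) le_rfl
  | succ d ih =>
    intro R e I
    have g1 := g R (by omega) I
    have l : R 3 < x.length := by omega
    rw [show inputAt x (R 3) / 2 = 0 by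
      have := x[R 3].toNat_le
      simp only [inputAt, List.getElem?_eq_getElem l]
      omega] at g1
    have g2 := Go.op (x := x) hm (R := update R 0 0) (v := R 3 + 1) a6
      (by rw [update_of_ne (by omega)]; omega) (by rw [update_of_ne (by omega), I.one]; omega)
      (by rw [update_of_ne (by omega), update_of_ne (by omega), I.one, Op.eval]) (by omega)
    obtain ⟨R', I', e', g3⟩ := ih (update (update R 0 0) 3 (R 3 + 1))
      (by rw [update_self]; omega) ((I.upd (Or.inl rfl) 0).upd (Or.inr rfl) _)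
    exact ⟨R', I', e', (((g1.trans (Go.jz_zero a4 (update_self ..)) le_rfl).trans g2 le_rfl).trans
      (Go.goto a7) le_rfl).trans g3 (by omega)⟩

theorem go_load {N : ℕ} (hN : 0 < N) (a8 : P[8]? = some (.jz 3 16))
    (a9 : P[9]? = some (.op .sub 3 3 2)) (a10 : P[10]? = some (.read 0 3))
    (A : At P 11 (pushR 0)) (a15 : P[15]? = some (.goto 8)) :
    ∀ (j h : ℕ) (R : ℕ → ℕ), R 3 = j → j ≤ x.length → Inv N R (start (x.drop j) []) h →
      2 * (h + j) ≤ V → ∃ R', Inv N R' (start x []) (h + j) ∧ Go M P n x V 8 R 16 R' (8 * j + 1) := by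
  intro j
  induction j with
  | zero => exact fun h R e _ I _ => ⟨R, I, Go.jz_zero a8 e⟩
  | succ j ih =>
    intro h R e l I hV
    have hB := I.base
    have l' : j < x.length := l
    have g1 : Go M P n x V 8 R 9 R 1 := Go.jz_pos a8 (by omega) (by omega)
    have g2 : Go M P n x V 9 R 10 (update R 3 j) 1 := by
      refine Go.one a9 (by simp [Instr.operands, e, I.one]; omega) rfl ?_
      rw [Instr.regs, e, I.one, Op.eval, show j + 1 + M.modulus n - 1 = j + M.modulus n by omega,
        Nat.add_mod_right, hm j (by omega)]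
    have g3 := Go.read (R := update R 3 j) (x := x) hm a10 (by rw [update_self]; omega) (by omega)
    rw [update_self, show inputAt x j = x[j].toNat by
      simp only [inputAt, List.getElem?_eq_getElem l']] at g3
    obtain ⟨R1, I1, e1, g4⟩ := go_pushR (x := x) hm A hN
      ((I.upd (Or.inr rfl) j).upd (Or.inl rfl) x[j].toNat) (update_self ..) (by omega)
    have es : update (start (x.drop (j + 1)) []) 0 (x[j] :: start (x.drop (j + 1)) [] 0) =
        start (x.drop j) [] := by
      funext i
      by_cases hi : i = 0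
      · subst hi
        simp [start]
      · rw [update_of_ne hi]
        simp [start, hi]
    rw [es] at I1
    obtain ⟨R2, I2, g5⟩ := ih (h + 1) R1 (by rw [e1, update_of_ne (by omega), update_self])
      (by omega) I1 (by omega)
    refine ⟨R2, by rwa [show h + (j + 1) = h + 1 + j by omega], ?_⟩
    exact ((((g1.trans g2 le_rfl).trans g3 le_rfl).trans g4 le_rfl).trans (Go.goto a15)
      le_rfl).trans g5 (by omega)

end

/-- the input is written on stack `0` -/
def loader (N : ℕ) : List Instr :=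
  [.const 1 (N + 4), .const 2 1, .read 0 3, .op .shr 0 0 2, .jz 0 6, .goto 8, .op .add 3 3 2,
    .goto 2, .jz 3 16, .op .sub 3 3 2, .read 0 3] ++ pushR 0 ++ [.goto 8]

end RC

open RC in
/-- A stack program as a random access machine, in all three models. -/
theorem exists_ram (p : Prog) : ∃ (P : List Instr) (K : ℕ),
    (∀ M : Model, ∀ a ∈ P, M.Allows a) ∧
    ∀ (M : Model) (n : ℕ) (x : List Bool) (t : ℕ) (σ : ℕ → Word), Runs ∅ p (start x []) t σ →
      (M.modulus n = 0 ∨ K * (t + x.length + 1) < M.modulus n) →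
      ∃ (s : ℕ) (c : Cfg), (step M P n x)^[s] (startCfg n) = c ∧ P.length ≤ c.pc ∧
        c.time ≤ K * (t + x.length + 1) ^ 2 ∧ (c.reg 0 ≠ 0 ↔ (σ 1).head? = some true) := by
  obtain ⟨N₀, hN₀⟩ := ToTM2.exists_bounded p
  have hN : ToTM2.bounded (N₀ + 2) p := ToTM2.bounded_mono (by omega) hN₀
  obtain ⟨N, eN⟩ : ∃ N, N = N₀ + 2 := ⟨_, rfl⟩
  rw [← eN] at hN
  refine ⟨loader N ++ (comp p 16 ++ [.op .land 0 5 2]), 13 * (4 * N + 21), fun M => ?_, ?_⟩
  · simp only [List.forall_mem_append]
    refine ⟨?_, allows_comp M p _, ?_⟩ <;> cases M <;> simp [loader, pushR, Model.Allows]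
  rintro M n x t σ ⟨t', ht, E⟩ hM
  set P := loader N ++ (comp p 16 ++ [.op .land 0 5 2]) with hP
  obtain ⟨L, eL⟩ : ∃ L, L = t + x.length + 1 := ⟨_, rfl⟩
  rw [← eL] at hM ⊢
  have hNL : N ≤ N * L := Nat.le_mul_of_pos_right _ (by omega)
  obtain ⟨V, eV⟩ : ∃ V, V = 2 * (N * L) + 10 * L := ⟨_, rfl⟩
  have hm : ∀ a ≤ V, a % M.modulus n = a := fun a ha => by
    rcases hM with h | h
    · rw [h, Nat.mod_zero]
    · refine Nat.mod_eq_of_lt (lt_of_le_of_lt ?_ h)
      rw [mul_assoc, add_mul, mul_assoc]
      omega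
  have A : At P 0 P := at_self P []
  rw [hP, at_append, at_append, length_comp, ← hP] at A
  obtain ⟨A1, A2, a, -⟩ := A
  simp only [loader, at_append, At] at A1
  obtain ⟨⟨⟨a0, a1, a2, a3, a4, a5, a6, a7, a8, a9, a10, -⟩, A11⟩, a15, -⟩ := A1
  have g0 := (Go.const (x := x) (R := (startCfg n).reg) hm a0 (by omega)).trans
    (Go.const hm a1 (by omega)) le_rfl
  have I0 : Inv N (update (update (startCfg n).reg 1 (N + 4)) 2 1)
      (start (x.drop x.length) []) (N + 4) := by
    refine ⟨by simp, by simp, le_rfl, fun i _ => ?_⟩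
    rw [show start (x.drop x.length) [] i = [] by simp [start], update_of_ne (by omega),
      update_of_ne (by omega)]
    exact if_neg (by omega)
  obtain ⟨R1, I1, e1, g1⟩ := go_count (x := x) hm a2 a3 a4 a5 a6 a7 (by omega) x.length _
    (by simp [startCfg]) I0
  obtain ⟨R2, I2, g2⟩ := go_load (x := x) hm (by omega) a8 a9 a10 A11 a15 _ _ R1 e1 le_rfl I1 (by omega)
  obtain ⟨R3, h3, l3, I3, g3⟩ := sim (x := x) hm E hN 16 _ R2 A2 I2 (by omega)
  have r := I3.stk 1 (by omega)
  have l := r.le
  have g4 := Go.op (x := x) hm (R := R3) (v := R3 5 % 2) a (by exact l.trans (by omega))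
    (by rw [I3.one]; omega) (by rw [I3.one, Op.eval, Nat.and_one_is_mod]) (by omega)
  obtain ⟨u, τ, e, hτ⟩ := (((g0.trans g1 le_rfl).trans g2 le_rfl).trans g3 le_rfl).trans g4
    (s'' := 13 * L) (by omega) 0
  refine ⟨u, _, e, ?_, hτ.trans ?_, ?_⟩
  · simp [hP, loader, pushR, length_comp]
    omega
  · have : 2 * V + 1 ≤ (4 * N + 21) * L := by
      rw [add_mul, mul_assoc]
      omega
    calc 0 + 13 * L * (2 * V + 1) ≤ 13 * L * ((4 * N + 21) * L) := by
          rw [zero_add]
          exact Nat.mul_le_mul_left _ this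
      _ = _ := by ring
  · simp only [update_self]
    cases hs : σ 1 with
    | nil =>
      rw [hs] at r
      rw [show R3 5 = 0 from r]
      simp
    | cons b w =>
      rw [hs] at r
      obtain ⟨c, -, -, h, -⟩ := r
      rw [show R3 5 = 2 * c + b.toNat from h]
      cases b <;> simp <;> omega

end Vale.Agent.Q310
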