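import Vale.Agent.P310Z.Defs
import Vale.Agent.P310T.Defs

/-!
# P310: machines which decide Weisfeiler-Leman equivalence on all large graphs
-/

namespace Vale.Agent.Q310

open Turing Vale.Agent.P310 Vale.Agent.P310Z Vale.Agent.P310T

/-- The multitape Turing machine `A` decides `≡_k` on all pairs of graphs with `n ≥ n₀` vertices:
it halts, in an accepting state iff the graphs are equivalent. -/
def TmDecides (A : TM) (k n₀ : ℕ) : Prop :=
  ∀ n : ℕ, n₀ ≤ n → ∀ G H : SimpleGraph (Fin n), ∃ t, A.act (A.conf (inputWord G H) t) = none ∧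
    ((A.conf (inputWord G H) t).state ∈ A.accept ↔ WLEquiv k G H)

/-- The stack machine `A` decides `≡_k` on all pairs of graphs with `n ≥ n₀` vertices, within
`T n` steps; the answer is yes iff the top symbol of the output stack is `yes`. -/
def StackDecides (A : FinTM2) (inp : Bool → A.Γ A.k₀) (yes : A.Γ A.k₁) (k n₀ : ℕ) (T : ℕ → ℕ) :
    Prop :=
  ∀ n : ℕ, n₀ ≤ n → ∀ G H : SimpleGraph (Fin n), ∃ s ≤ T n, ∃ c : A.Cfg,
    stepsFrom A (initList A ((inputWord G H).map inp)) s = some c ∧ c.l = none ∧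
      ((c.stk A.k₁).head? = some yes ↔ WLEquiv k G H)

/-- The program `P` for the model `M` decides `≡_k` on all pairs of graphs with `n ≥ n₀` vertices,
within time `T n`; the answer is yes iff `R 0 ≠ 0` at the end. -/
def RamDecides (M : Model) (P : List Instr) (k n₀ : ℕ) (T : ℕ → ℕ) : Prop :=
  (∀ a ∈ P, M.Allows a) ∧
  ∀ n : ℕ, n₀ ≤ n → ∀ G H : SimpleGraph (Fin n), ∃ (s : ℕ) (c : Cfg),
    (step M P n (inputWord G H))^[s] (startCfg n) = c ∧ P.length ≤ c.pc ∧ c.time ≤ T n ∧
      (c.reg 0 ≠ 0 ↔ WLEquiv k G H)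

/-- `T` is the worst-case running time `T_A` of a multitape Turing machine `A`, or a bound for the
running time of a stack machine or of a random access machine, which decides `≡_k` on all large
graphs. -/
def IsTime (k : ℕ) (T : ℕ → ℕ) : Prop :=
  ∃ n₀ : ℕ, (∃ A : TM, TmDecides A k n₀ ∧ T = A.worst) ∨
    (∃ (A : FinTM2) (inp : Bool → A.Γ A.k₀) (yes : A.Γ A.k₁), StackDecides A inp yes k n₀ T) ∨
      ∃ (M : Model) (P : List Instr), RamDecides M P k n₀ T

end Vale.Agent.Q310
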