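import Vale.Agent.Q310.Low

/-! The lower bound for all machines which are correct on all large graphs. -/

namespace Vale.Agent.Q310

open Function Turing Filter Vale.Agent.P310 Vale.Agent.P310Z

/-- A stack machine which is correct on large graphs can be corrected on the small ones. -/
def Patch : Prop :=
  ∀ (A : FinTM2) (inp : Bool → A.Γ A.k₀) (yes : A.Γ A.k₁) (k n₀ : ℕ) (T : ℕ → ℕ),
    StackDecides A inp yes k n₀ T →
      ∃ (K : ℕ) (B : FinTM2) (inp' : Bool → B.Γ B.k₀) (yes' : B.Γ B.k₁),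
        DecidesWL B inp' yes' k fun n => T n + K

theorem decides_mono {A : FinTM2} {inp : Bool → A.Γ A.k₀} {yes : A.Γ A.k₁} {k : ℕ}
    {T T' : ℕ → ℕ} (h : DecidesWL A inp yes k T) (hT : ∀ n, T n ≤ T' n) :
    DecidesWL A inp yes k T' := fun n G H => by
  obtain ⟨s, hs, hc⟩ := h n G H
  exact ⟨s, hs.trans (hT n), hc⟩

theorem to_stack (hS : Patch) : ∃ E : ℕ, ∀ (k : ℕ) (T : ℕ → ℕ), IsTime k T →
    ∃ (K : ℕ) (A : FinTM2) (inp : Bool → A.Γ A.k₀) (yes : A.Γ A.k₁),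
      DecidesWL A inp yes k fun n => (K + n + T n + 2) ^ E := by
  obtain ⟨E, hE⟩ := ram_to_tm
  refine ⟨E + 1, fun k T ⟨n₀, hT⟩ => ?_⟩
  have h1 : ∀ z : ℕ, z + 2 ≤ (z + 2) ^ (E + 1) := fun z => Nat.le_self_pow (by omega) _
  rcases hT with ⟨A, hA, rfl⟩ | ⟨A, inp, yes, hA⟩ | ⟨M, P, hP⟩
  · obtain ⟨B, inp, yes, hB⟩ := tm_to_stack hA
    obtain ⟨K, B', inp', yes', hB'⟩ := hS B inp yes k n₀ _ hB
    exact ⟨K, B', inp', yes', decides_mono hB' fun n => le_trans (by omega) (h1 _)⟩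
  · obtain ⟨K, B', inp', yes', hB'⟩ := hS A inp yes k n₀ _ hA
    exact ⟨K, B', inp', yes', decides_mono hB' fun n => le_trans (by omega) (h1 _)⟩
  · obtain ⟨K, A, inp, yes, hA⟩ := hE M P k n₀ T hP
    exact ⟨K, A, inp, yes, decides_mono hA fun n => Nat.pow_le_pow_right (by omega) (by omega)⟩

theorem lower_of (hS : Patch) : ∃ c : ℝ, 0 < c ∧ ∃ k₀ : ℕ, ∀ k : ℕ, k₀ ≤ k → ∀ T : ℕ → ℕ,
    IsTime k T → ∀ᶠ n : ℕ in atTop, (n : ℝ) ^ (c * k) ≤ (T n : ℝ) := by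
  obtain ⟨c, hc, k₀, h⟩ := strongLowerBound
  obtain ⟨E, hE⟩ := to_stack hS
  refine ⟨c / (2 * (E + 1)), by positivity, max k₀ ⌈4 * (E + 1) / c⌉₊, fun k hk T hT => ?_⟩
  obtain ⟨K, A, inp, yes, hA⟩ := hE k T hT
  exact le_of_pow_le hc (Nat.ceil_le.1 (le_of_max_le_right hk))
    (h k (le_of_max_le_left hk) A inp yes _ hA)

theorem noSub_of (hS : Patch) : ¬ ∃ g : ℕ → ℝ, g =o[atTop] (fun k : ℕ => (k : ℝ)) ∧
    ∀ k : ℕ, 2 ≤ k → ∃ T : ℕ → ℕ, IsTime k T ∧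
      (fun n : ℕ => (T n : ℝ)) =O[atTop] (fun n : ℕ => (n : ℝ) ^ g k) := by
  obtain ⟨c, hc, k₀, h⟩ := lower_of hS
  rintro ⟨g, hg, hall⟩
  have h1 : ∀ᶠ k : ℕ in atTop, ‖g k‖ ≤ c / 2 * ‖(k : ℝ)‖ := hg.def (by positivity)
  obtain ⟨k, hk, hk1, hk2⟩ :=
    (h1.and ((eventually_ge_atTop k₀).and (eventually_ge_atTop 2))).exists
  obtain ⟨T, hA, hT⟩ := hall k hk2
  obtain ⟨B, hB0, hB⟩ := hT.exists_pos
  have hkpos : (0 : ℝ) < k := by exact_mod_cast (by omega : 0 < k)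
  have hgk : g k ≤ c * k / 2 := by
    have := (Real.le_norm_self (g k)).trans hk
    rw [Real.norm_of_nonneg hkpos.le] at this
    linarith
  have h4 : Tendsto (fun n : ℕ => (n : ℝ) ^ (c * k / 2)) atTop atTop :=
    (tendsto_rpow_atTop (by positivity)).comp tendsto_natCast_atTop_atTop
  obtain ⟨n, h5, h6, h7, h8⟩ := ((h4.eventually_gt_atTop B).and ((h k hk1 T hA).and
    (hB.bound.and (eventually_ge_atTop 1)))).exists
  have hn1 : (1 : ℝ) ≤ n := by exact_mod_cast h8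
  rw [Real.norm_of_nonneg (Nat.cast_nonneg _), Real.norm_of_nonneg (by positivity)] at h7
  have h9 := Real.rpow_le_rpow_of_exponent_le hn1 hgk
  have h10 : (n : ℝ) ^ (c * k) = (n : ℝ) ^ (c * k / 2) * (n : ℝ) ^ (c * k / 2) := by
    rw [← Real.rpow_add (by linarith), add_halves]
  nlinarith

/-- The worst-case time is attained, and it is the number of steps until the machine halts. -/
theorem worst_spec (k n₀ : ℕ) (A : P310T.TM) (hA : TmDecides A k n₀) (n : ℕ) (hn : n₀ ≤ n) :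
    IsGreatest {t | ∃ G H : SimpleGraph (Fin n),
      IsLeast {s | A.act (A.conf (inputWord G H) s) = none} t} (A.worst n) := by
  refine ⟨?_, ?_⟩
  · obtain ⟨G, H, e⟩ := P310T.worst_attained A n
    obtain ⟨t, ht, -⟩ := hA n hn G H
    exact ⟨G, H, e ▸ (P310T.time_spec ht).2.1, fun s hs => e ▸ (P310T.time_spec hs).1⟩
  · rintro t ⟨G, H, ht, hmin⟩
    exact (hmin (P310T.time_spec ht).2.1).trans (P310T.time_le_worst G H)

end Vale.Agent.Q310
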