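import Vale.Agent.Q310.Defs
import Vale.Agent.P310T.Low
import Vale.Agent.Lib.PolyTime.Lists3

/-! The lower bound for random access machines which are correct on all large graphs. -/

namespace Vale.Agent.Q310

open Function Turing Filter Vale.Agent.P310 Vale.Agent.P310Z Vale.Agent.Lib.PolyTime

theorem val_inj : ∀ {x y : Word}, x.length = y.length → val x = val y → x = y
  | [], [], _, _ => rfl
  | [], _ :: _, h, _ => by simp at h
  | _ :: _, [], h, _ => by simp at h
  | a :: x, b :: y, h, e => by
    simp only [List.length_cons, val_cons] at h e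
    have h1 : a = b := by cases a <;> cases b <;> simp at e ⊢ <;> omega
    subst h1
    rw [val_inj (x := x) (y := y) (by omega) (by omega)]

/-- description of a machine with a table for the short inputs -/
abbrev DescT := Desc × ℕ × List (ℕ × ℕ)

/-- the start state -/
def tinit (y : DescT × Raw) : St :=
  if y.2.w.length < y.1.2.1 then
    ((y.1.1.1, 0, []), y.1.1.1.length,
      [(0, if (y.2.w.length, val y.2.w) ∈ y.1.2.2 then 1 else 0)])
  else uinit (y.1.1, y.2)

theorem pt_tinit : PT ∅ tinit := by
  have hl : PT ∅ fun y : DescT × Raw => y.2.w.length := PT.rawLength PT.snd'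
  have hv : PT ∅ fun y : DescT × Raw => val y.2.w := PT.rawVal PT.snd'
  have hc : PT ∅ fun y : DescT × Raw => y.1.1.1 := PT.fst'.fst.fst
  have he : PT ∅ fun p : (ℕ × ℕ) × (ℕ × ℕ) => decide (p.1 = p.2) :=
    (PT.decide_and (PT.eqNat PT.fst'.fst PT.snd'.fst) (PT.eqNat PT.fst'.snd PT.snd'.snd)).congr
      fun p => decide_eq_decide.2 Prod.ext_iff.symm
  exact PT.ite (hl.lt PT.fst'.snd.fst)
    ((hc.pair ((PT.const 0).pair PT.nil)).pair (hc.length.pair
      (PT.cons ((PT.const 0).pair (PT.ite ((PT.mem' he PT.fst'.snd.snd (hl.pair hv)).congr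
        fun _ => decide_eq_decide.2 Iff.rfl) (PT.const 1) (PT.const 0))) PT.nil)))
    (pt_uinit.comp (PT.fst'.fst.pair PT.snd'))

theorem adjBits_inj {n : ℕ} {G H : SimpleGraph (Fin n)} (h : adjBits G = adjBits H) : G = H := by
  classical
  have key : ∀ (l : List (Fin n)) (f g : Fin n → List Bool),
      (∀ i, (f i).length = (g i).length) → l.flatMap f = l.flatMap g → ∀ i ∈ l, f i = g i := by
    intro l f g hl
    induction l with
    | nil => intro _ i hi; simp at hi
    | cons a l ih =>
      intro e i hi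
      rw [List.flatMap_cons, List.flatMap_cons] at e
      obtain ⟨e1, e2⟩ := List.append_inj e (hl a)
      rcases List.mem_cons.1 hi with rfl | hi
      · exact e1
      · exact ih e2 i hi
  ext i j
  have h1 := key _ _ _ (fun i => by simp) h i (List.mem_finRange i)
  have h2 := List.map_inj_left.1 h1 j (List.mem_finRange j)
  exact decide_eq_decide.1 h2

theorem inputWord_inj {n : ℕ} {G H G' H' : SimpleGraph (Fin n)}
    (h : inputWord G H = inputWord G' H') : G = G' ∧ H = H' := by
  obtain ⟨e1, e2⟩ := List.append_inj h (by simp [adjBits, List.length_flatMap])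
  exact ⟨adjBits_inj e1, adjBits_inj e2⟩

theorem exists_table (k n₀ : ℕ) : ∃ Y : List (ℕ × ℕ), ∀ n < n₀, ∀ G H : SimpleGraph (Fin n),
    (((inputWord G H).length, val (inputWord G H)) ∈ Y ↔ WLEquiv k G H) := by
  classical
  have hf : {q : ℕ × ℕ | ∃ n < n₀, ∃ G H : SimpleGraph (Fin n), WLEquiv k G H ∧
      q = ((inputWord G H).length, val (inputWord G H))}.Finite := by
    refine (Set.Finite.biUnion (Set.finite_lt_nat n₀) fun n _ => Set.finite_range
      fun p : SimpleGraph (Fin n) × SimpleGraph (Fin n) =>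
        ((inputWord p.1 p.2).length, val (inputWord p.1 p.2))).subset ?_
    rintro _ ⟨n, hn, G, H, -, rfl⟩
    exact Set.mem_biUnion hn ⟨(G, H), rfl⟩
  refine ⟨hf.toFinset.toList, fun n hn G H => ?_⟩
  rw [Finset.mem_toList, Set.Finite.mem_toFinset]
  refine ⟨?_, fun h => ⟨n, hn, G, H, h, rfl⟩⟩
  rintro ⟨n', -, G', H', h, e⟩
  obtain ⟨e1, e2⟩ := Prod.ext_iff.1 e
  have e3 := val_inj e1 e2
  simp only [length_inputWord] at e1
  obtain rfl : n = n' := Nat.mul_self_inj.1 (by omega)
  obtain ⟨rfl, rfl⟩ := inputWord_inj e3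
  exact h

theorem ram_to_tm : ∃ E : ℕ, ∀ (M : Model) (P : List Instr) (k n₀ : ℕ) (T : ℕ → ℕ),
    RamDecides M P k n₀ T → ∃ (K : ℕ) (A : FinTM2) (inp : Bool → A.Γ A.k₀) (yes : A.Γ A.k₁),
      DecidesWL A inp yes k fun n => (K + n + T n + 2) ^ E := by
  classical
  obtain ⟨c₀, hc₀⟩ := pt_tinit.pbd
  obtain ⟨I, hI, eI⟩ := pt_tinit
  obtain ⟨S, hS, eS⟩ := pt_ustep
  obtain ⟨F, hF, eF⟩ := pt_uflag
  obtain ⟨O, hO, eO⟩ := pt_uout
  obtain ⟨U, T₀, hT₀, hU⟩ := exists_while hI hS hF hO
  obtain ⟨E, hE⟩ : PB fun z => 2 * (2 * z + 2 + T₀ (sizeBound c₀ z)) :=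
    (PB.const 2).mul ((((PB.const 2).mul PB.id).add (PB.const 2)).add (hT₀.comp (pb_sizeBound c₀)))
  refine ⟨E, fun M P k n₀ T ⟨hP, h⟩ => ?_⟩
  obtain ⟨Y, hY⟩ := exists_table k n₀
  set D : DescT := (desc M P, 2 * (n₀ * n₀), Y) with hD
  obtain ⟨A, inp, yes, hA⟩ := exists_tm2 (.seq (pushAll (pr (enc D) [])) U)
  refine ⟨esize D, A, inp, yes, fun n G H => ?_⟩
  set x := inputWord G H with hx
  have hxl : x.length = 2 * (n * n) := length_inputWord G H
  set K := esize D with hK
  have hK' : esize (desc M P) ≤ K := esize_fst_le D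
  set z := K + n + T n with hz
  have hzz : K * n ≤ z * z := Nat.mul_le_mul (by omega) (by omega)
  have hnn : n * n ≤ z * z := Nat.mul_le_mul (by omega) (by omega)
  set y : DescT × Raw := (D, ⟨x⟩) with hy
  have ey : esize y ≤ 2 * (z * z) + 2 * z + 1 := by
    rw [hy, esize_pair, esize_raw]
    simp only
    omega
  have eit : ∀ j, S^[j] (I (enc y)) = enc (ustep^[j] (tinit y)) := fun j => by
    induction j with
    | zero => exact eI y
    | succ j ih => rw [iterate_succ_apply', iterate_succ_apply', ih, eS]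
  have hall : esize (tinit y) ≤ _ := (hc₀ y).trans (pb_mono c₀ ey)
  have main : ∃ σ, Runs ∅ U (start (enc y) []) (T₀ (sizeBound c₀ z)) σ ∧
      ((σ 1).head? = some true ↔ WLEquiv k G H) := by
    rcases lt_or_ge n n₀ with hn | hn
    · have e0 : tinit y = ((P.map Instr.code, 0, []), (P.map Instr.code).length,
          [(0, if (x.length, val x) ∈ Y then 1 else 0)]) := by
        have : x.length < 2 * (n₀ * n₀) := by
          have := Nat.mul_self_lt_mul_self hn
          omega
        rw [tinit, if_pos this]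
        simp only [hy, hD, desc_fst]
      obtain ⟨σ, r, hσ⟩ := hU (enc y) 0 (sizeBound c₀ z) (ey.trans (by unfold sizeBound; omega))
        (Nat.zero_le _) (fun j hj => absurd hj (Nat.not_lt_zero j))
        (by rw [eit, eF, iterate_zero_apply, e0, uflag, if_neg (lt_irrefl _)]; rfl) (fun j hj => by
          obtain rfl : j = 0 := Nat.le_zero.1 hj
          rw [eit, iterate_zero_apply]
          show esize _ ≤ _
          unfold sizeBound
          omega)
      refine ⟨σ, r, ?_⟩
      rw [hσ, eit, eO, iterate_zero_apply, e0, ← hY n hn G H, ← hx, uout, get_cons]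
      by_cases hm : (x.length, val x) ∈ Y <;> simp [enc_bool, hm]
    · obtain ⟨s₁, c₁, e₁, h₁, h₂, h₃⟩ := h n hn G H
      rw [← hx] at e₁
      have hex : ∃ s, P.length ≤ ((step M P n x)^[s] (startCfg n)).pc := ⟨s₁, e₁ ▸ h₁⟩
      set s := Nat.find hex with hs
      have hs1 : s ≤ s₁ := Nat.find_min' hex (e₁ ▸ h₁)
      have e₂ : (step M P n x)^[s] (startCfg n) = c₁ := by
        obtain ⟨d, rfl⟩ := Nat.exists_eq_add_of_le' hs1
        rw [← e₁, iterate_add_apply, iterate_fixed (step_halted (Nat.find_spec hex))]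
      have hlt : ∀ i < s, ((step M P n x)^[i] (startCfg n)).pc < P.length := fun i hi =>
        not_le.1 (Nat.find_min hex hi)
      have hmono : Monotone fun j => ((step M P n x)^[j] (startCfg n)).time :=
        monotone_nat_of_le_succ fun j => by rw [iterate_succ_apply']; exact step_time_le _ _ _ _ _
      have hsim := fun j (hj : j ≤ s) => sim (x := x) (n := n) (b := K * n + K + n + 2) hP
        (by omega)
        (Nat.lt_two_pow_self.trans_le (Nat.pow_le_pow_right (by omega) (by omega)))
        ((modulus_le M P n).trans (Nat.pow_le_pow_right (by omega)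
          ((Nat.mul_le_mul_right n hK').trans (by omega)))) (by omega) j
        fun i hi => hlt i (by omega)
      have e0 : tinit y =
          ((P.map Instr.code, M.modulus n, x.map Bool.toNat), 0, [(0, n)]) := by
        have : ¬x.length < 2 * (n₀ * n₀) := by
          have := Nat.mul_self_le_mul_self hn
          omega
        rw [tinit, if_neg this]
        exact uinit_eq hxl
      have hctx := (esize_fst_le (tinit y)).trans hall
      obtain ⟨μ, c, f1, f2, f3, f4, -⟩ := hsim s le_rfl
      obtain rfl : c = c₁ := f1.symm.trans e₂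
      obtain ⟨σ, r, hσ⟩ := hU (enc y) s (sizeBound c₀ z) (ey.trans (by unfold sizeBound; omega))
        (by unfold sizeBound; omega) (fun j hj => by
          obtain ⟨μ, c, g1, g2, -⟩ := hsim j hj.le
          have := hlt j hj
          rw [eit, eF, e0, g2, uflag, if_pos (by simpa [g1] using this)]
          exact List.cons_ne_nil _ _)
        (by rw [eit, eF, e0, f2, uflag, if_neg (by simpa using h₁)]; rfl) (fun j hj => by
          obtain ⟨μ, c', g1, g2, -, g4, g5, g6, g7⟩ := hsim j hj
          have t1 : c'.time ≤ T n := by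
            have := hmono hj
            simp only [g1, f1] at this
            omega
          have t2 : esize μ ≤ μ.length * (2 * (3 * (z * z + 2 * z + 2) + 1) + 1) :=
            esize_list_le fun p hp => by
              have u1 := esize_nat_le (g7 p hp).1
              have u2 := esize_nat_le (g7 p hp).2
              have u3 := esize_pair p.1 p.2
              simp only [Prod.mk.eta] at u3
              omega
          have t3 := Nat.mul_le_mul_right (2 * (3 * (z * z + 2 * z + 2) + 1) + 1)
            (show μ.length ≤ z + 1 by omega)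
          have t4 := esize_nat_le g6
          rw [e0] at hctx
          rw [eit, e0, g2]
          show esize _ ≤ _
          rw [esize_pair, esize_pair c'.pc]
          unfold sizeBound
          simp only at hctx
          omega)
      refine ⟨σ, r, ?_⟩
      rw [hσ, eit, eO, e0, f2, ← h₃, uout, f3]
      simp [enc_bool]
  obtain ⟨σ, r, hσ⟩ := main
  have r0 := runs_pushAll (pr (enc D) []) x
  rw [show pr (enc D) [] ++ x = enc y by
    show _ = pr (enc D) x
    rw [pr_eq _ [], pr_eq _ x, List.append_assoc]; rfl] at r0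
  obtain ⟨t, ht, d, d1, d2, d3⟩ := hA x _ σ (r0.seq r)
  refine ⟨t, ht.trans (le_trans ?_ (hE z)), d, d1, d2, d3.trans hσ⟩
  rw [length_pr, List.length_nil, show (enc D).length = K from rfl]
  simp only
  omega

theorem tm_to_stack {A : P310T.TM} {k n₀ : ℕ} (h : TmDecides A k n₀) :
    ∃ (B : FinTM2) (inp : Bool → B.Γ B.k₀) (yes : B.Γ B.k₁),
      StackDecides B inp yes k n₀ fun n => A.worst n + 1 := by
  obtain ⟨B, inp, yes, hB⟩ := P310T.exists_stack A
  refine ⟨B, inp, yes, fun n hn G H => ?_⟩
  obtain ⟨t, ht, hacc⟩ := h n hn G H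
  obtain ⟨-, h2, h3, h4⟩ := P310T.time_spec ht
  obtain ⟨c, e1, e2, e3⟩ := hB _ _ h2 h3
  exact ⟨_, Nat.succ_le_succ (P310T.time_le_worst G H), c, e1, e2, by rw [e3, h4, hacc]⟩

end Vale.Agent.Q310
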