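import Vale.Agent.Q310.Glue

/-! A stack machine which is correct on large graphs is corrected on the small ones. -/

namespace Vale.Agent.Q310.P3

open Function Turing Turing.TM2 Vale.Agent.P310 Vale.Agent.P310Z Vale.Agent.Lib.PolyTime

section

variable {K : Type} {Γ : K → Type} {Λ σ : Type}

/-- the statements of the old machine in the new one -/
def tr : Stmt Γ Λ σ → Stmt Γ (Option Λ) (σ × Option Bool)
  | .push k f q => .push k (fun s => f s.1) (tr q)
  | .peek k f q => .peek k (fun s o => (f s.1 o, s.2)) (tr q)
  | .pop k f q => .pop k (fun s o => (f s.1 o, s.2)) (tr q)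
  | .load f q => .load (fun s => (f s.1, s.2)) (tr q)
  | .branch f p q => .branch (fun s => f s.1) (tr p) (tr q)
  | .goto f => .goto fun s => some (f s.1)
  | .halt => .halt

/-- the configurations of the old machine in the new one -/
def lift (e : Option Bool) (c : TM2.Cfg Γ Λ σ) : TM2.Cfg Γ (Option Λ) (σ × Option Bool) :=
  ⟨c.l.map some, (c.var, e), c.stk⟩

variable [DecidableEq K]

theorem stepAux_tr (e : Option Bool) (q : Stmt Γ Λ σ) : ∀ (v : σ) (S : ∀ k, List (Γ k)),
    stepAux (tr q) (v, e) S = lift e (stepAux q v S) := by
  induction q with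
  | push k f q ih => intro v S; exact ih _ _
  | peek k f q ih => intro v S; exact ih _ _
  | pop k f q ih => intro v S; exact ih _ _
  | load f q ih => intro v S; exact ih _ _
  | branch f p q ihp ihq =>
    intro v S
    simp only [tr, stepAux]
    cases f v
    · exact ihq _ _
    · exact ihp _ _
  | goto f => intro v S; rfl
  | halt => intro v S; rfl

variable (k₀ k₁ : K) (inp : Bool → Γ k₀) (yes : Γ k₁) (main : Λ) (tab : List Bool → Bool)

/-- push the bits back and start the old machine -/
def back : List Bool → Stmt Γ (Option Λ) (σ × Option Bool)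
  | [] => .load (fun s => (s.1, none)) (.goto fun _ => some main)
  | b :: w => .push k₀ (fun _ => inp b) (back w)

open Classical in
/-- read at most `j` more bits; `w` holds the bits read so far, the last one first -/
noncomputable def rd : ℕ → List Bool → Stmt Γ (Option Λ) (σ × Option Bool)
  | 0, w => back k₀ inp main w
  | j + 1, w => .pop k₀ (fun s o => (s.1, o.map fun a => decide (a = inp true)))
      (.branch (fun s => s.2.isNone)
        (if tab w.reverse then .push k₁ (fun _ => yes) .halt else .halt)
        (.branch (fun s => s.2.getD false) (rd j (true :: w)) (rd j (false :: w))))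

theorem back_spec (v : σ) (w : List Bool) : ∀ (e : Option Bool) (S : ∀ k, List (Γ k)),
    stepAux (back (σ := σ) k₀ inp main w) (v, e) S =
      ⟨some (some main), (v, none), update S k₀ (w.reverse.map inp ++ S k₀)⟩ := by
  induction w with
  | nil => intro e S; simp [back]
  | cons b w ih => intro e S; simp [back, ih]

theorem rd_long (hi : Injective inp) (v : σ) (j : ℕ) : ∀ (w x : List Bool) (e : Option Bool)
    (S : ∀ k, List (Γ k)), j ≤ x.length → S k₀ = x.map inp →
    stepAux (rd (σ := σ) k₀ k₁ inp yes main tab j w) (v, e) S =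
      ⟨some (some main), (v, none), update S k₀ ((w.reverse ++ x).map inp)⟩ := by
  induction j with
  | zero => intro w x e S _ hS; rw [rd, back_spec, hS, List.map_append]
  | succ j ih =>
    intro w x e S hj hS
    obtain _ | ⟨b, x⟩ := x
    · simp at hj
    have := ih (b :: w) x (some b) (update S k₀ (x.map inp)) (by simpa using hj) (by simp)
    cases b <;> simp [rd, hS, hi.eq_iff] <;> simpa using this

theorem rd_short (hi : Injective inp) (v : σ) (j : ℕ) : ∀ (w x : List Bool) (e : Option Bool)
    (S : ∀ k, List (Γ k)), x.length < j → S k₀ = x.map inp → (∀ k, k ≠ k₀ → S k = []) →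
    (stepAux (rd (σ := σ) k₀ k₁ inp yes main tab j w) (v, e) S).l = none ∧
      (((stepAux (rd (σ := σ) k₀ k₁ inp yes main tab j w) (v, e) S).stk k₁).head? = some yes ↔
        tab (w.reverse ++ x) = true) := by
  induction j with
  | zero => intro w x e S hj; simp at hj
  | succ j ih =>
    intro w x e S hj hS hO
    obtain _ | ⟨b, x⟩ := x
    · have h1 : update S k₀ [] k₁ = [] := by
        rcases eq_or_ne k₁ k₀ with rfl | h
        · simp
        · rw [update_of_ne h, hO _ h]
      by_cases ht : tab w.reverse = true <;> simp [rd, hS, ht, h1]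
    have := ih (b :: w) x (some b) (update S k₀ (x.map inp)) (by simpa using hj) (by simp)
      fun k hk => by rw [update_of_ne hk, hO k hk]
    cases b <;> simp [rd, hS, hi.eq_iff] <;> simpa using this

end

/-- the corrected machine -/
noncomputable def mach (A : FinTM2) (inp : Bool → A.Γ A.k₀) (yes : A.Γ A.k₁) (N : ℕ)
    (tab : List Bool → Bool) : FinTM2 :=
  letI := A.kFin
  letI := A.ΛFin
  letI := A.σFin
  letI := A.Γk₀Fin
  { K := A.K, k₀ := A.k₀, k₁ := A.k₁, Γ := A.Γ, Λ := Option A.Λ, main := none,
    σ := A.σ × Option Bool, initialState := (A.initialState, none),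
    m := fun l => match l with
      | none => rd A.k₀ A.k₁ inp yes A.main tab N []
      | some l => tr (A.m l) }

theorem steps_succ (A : FinTM2) (c : A.Cfg) (s : ℕ) :
    stepsFrom A c (s + 1) = (A.step c).bind fun d => stepsFrom A d s := by
  induction s with
  | zero =>
    show A.step c = _
    cases A.step c <;> rfl
  | succ s ih => rw [stepsFrom, ih]; cases A.step c <;> rfl

theorem steps_lift (A : FinTM2) (inp : Bool → A.Γ A.k₀) (yes : A.Γ A.k₁) (N : ℕ)
    (tab : List Bool → Bool) (c : A.Cfg) (s : ℕ) :
    stepsFrom (mach A inp yes N tab) (lift none c) s = (stepsFrom A c s).map (lift none) := by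
  induction s with
  | zero => rfl
  | succ s ih =>
    show Option.bind (stepsFrom (mach A inp yes N tab) (lift none c) s) _ =
      Option.map _ (Option.bind (stepsFrom A c s) _)
    rw [ih]
    rcases stepsFrom A c s with _ | ⟨_ | l, v, S⟩
    · rfl
    · rfl
    · exact congrArg some (stepAux_tr none (A.m l) v S)

theorem patch_inj {A : FinTM2} {inp : Bool → A.Γ A.k₀} {yes : A.Γ A.k₁} {k n₀ : ℕ} {T : ℕ → ℕ}
    (hi : Injective inp) (h : StackDecides A inp yes k n₀ T) :
    ∃ (B : FinTM2) (inp' : Bool → B.Γ B.k₀) (yes' : B.Γ B.k₁),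
      DecidesWL B inp' yes' k fun n => T n + 1 := by
  obtain ⟨Y, hY⟩ := exists_table k n₀
  refine ⟨mach A inp yes (2 * (n₀ * n₀)) fun w => decide ((w.length, val w) ∈ Y), inp, yes,
    fun n G H => ?_⟩
  have hl := length_inputWord G H
  set x := inputWord G H with hx
  have h0 : (initList A (x.map inp)).stk A.k₀ = x.map inp := by simp [initList]
  rcases lt_or_ge n n₀ with hn | hn
  · have := Nat.mul_self_lt_mul_self hn
    obtain ⟨e1, e2⟩ := rd_short A.k₀ A.k₁ inp yes A.main (fun w => decide ((w.length, val w) ∈ Y))
      hi A.initialState (2 * (n₀ * n₀)) [] x none (initList A (x.map inp)).stk (by omega) h0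
      fun k hk => by simp [initList, hk]
    exact ⟨1, Nat.le_add_left _ _, _, rfl, e1, e2.trans (decide_eq_true_iff.trans (hY n hn G H))⟩
  · have := Nat.mul_self_le_mul_self hn
    obtain ⟨s, hs, c, e1, e2, e3⟩ := h n hn G H
    have e := rd_long A.k₀ A.k₁ inp yes A.main (fun w => decide ((w.length, val w) ∈ Y))
      hi A.initialState (2 * (n₀ * n₀)) [] x none (initList A (x.map inp)).stk (by omega) h0
    have e' : update (initList A (x.map inp)).stk A.k₀ (([].reverse ++ x).map inp) =
        (initList A (x.map inp)).stk := update_eq_self_iff.2 h0.symm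
    rw [e'] at e
    refine ⟨s + 1, Nat.succ_le_succ hs, lift none c, ?_, congrArg (Option.map some) e2, e3⟩
    rw [steps_succ]
    exact (congrArg (fun d => stepsFrom _ d s) e).trans
      ((steps_lift A inp yes _ _ (initList A (x.map inp)) s).trans (by rw [e1]; rfl))

/-- the machine which says yes -/
def always : FinTM2 :=
  { K := Unit, k₀ := (), k₁ := (), Γ := fun _ => Bool, Λ := Unit, main := (), σ := Unit,
    initialState := (), m := fun _ => .push () (fun _ => true) .halt }

theorem patch : Patch := by
  intro A inp yes k n₀ T h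
  by_cases hi : Injective inp
  · exact ⟨1, patch_inj hi h⟩
  have hc : ∀ b, inp b = inp true := by
    intro b
    by_contra hb
    refine hi fun a c e => ?_
    cases a <;> cases c <;> cases b <;> simp_all
  have hm : ∀ w : List Bool, w.map inp = List.replicate w.length (inp true) := fun w => by
    induction w with
    | nil => rfl
    | cons b w ih => rw [List.map_cons, ih, hc b]; rfl
  have hall : ∀ n, n₀ ≤ n → ∀ G H : SimpleGraph (Fin n), WLEquiv k G H := by
    intro n hn G H
    obtain ⟨s, -, c, e1, e2, e3⟩ := h n hn G H
    obtain ⟨s', -, c', f1, f2, f3⟩ := h n hn G G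
    rw [hm, length_inputWord] at e1 f1
    have key : ∀ {c₀ d d' : A.Cfg} {s t : ℕ}, stepsFrom A c₀ s = some d → d.l = none →
        stepsFrom A c₀ (s + t) = some d' → d' = d := by
      intro c₀ d d' s t g1 g2 g3
      cases t with
      | zero => exact Option.some.inj (g3.symm.trans g1)
      | succ t =>
        have : ∀ t, stepsFrom A c₀ (s + (t + 1)) = none := by
          intro t
          induction t with
          | zero =>
            obtain ⟨l, v, S⟩ := d
            obtain rfl : l = none := g2
            rw [zero_add, stepsFrom, g1]; rfl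
          | succ t ih => rw [← add_assoc, stepsFrom, ih]; rfl
        rw [this] at g3
        cases g3
    have : c = c' := by
      rcases le_total s s' with hs | hs
      · obtain ⟨d, rfl⟩ := Nat.exists_eq_add_of_le hs
        exact (key e1 e2 f1).symm
      · obtain ⟨d, rfl⟩ := Nat.exists_eq_add_of_le hs
        exact key f1 f2 e1
    subst this
    exact e3.1 (f3.2 fun _ => rfl)
  obtain ⟨B, inp', yes', hB⟩ := patch_inj (A := always) (inp := id) (yes := true) (k := k)
    (n₀ := n₀) (T := fun _ => 1) injective_id fun n hn G H =>
      ⟨1, le_rfl, _, rfl, rfl, iff_of_true rfl (hall n hn G H)⟩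
  exact ⟨2, B, inp', yes', decides_mono hB fun n => by omega⟩

end Vale.Agent.Q310.P3
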