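import Vale.Agent.P310T.Main
import Vale.Agent.Q310.Defs

/-! P310: the upper bound `n ^ O(k)` for the three random access machines, from a compiler. -/

set_option linter.all false

namespace Vale.Agent.Q310

open Function Filter Turing Vale.Agent.P310 Vale.Agent.P310Z Vale.Agent.P310T
  Vale.Agent.Lib.PolyTime

theorem up_len (D m n : ℕ) :
    D * (n + 2) ^ m + 2 * (n * n) + 1 ≤ (D + 3) * (n + 2) ^ (m + 2) := by
  have h1 : 1 ≤ (n + 2) ^ m := Nat.one_le_pow _ _ (by omega)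
  have h2 : (n + 2) ^ m ≤ (n + 2) ^ (m + 2) := Nat.pow_le_pow_right (by omega) (by omega)
  have h3 : (n + 2) ^ 2 ≤ (n + 2) ^ (m + 2) := Nat.pow_le_pow_right (by omega) (by omega)
  have h4 : D * (n + 2) ^ m ≤ D * (n + 2) ^ (m + 2) := Nat.mul_le_mul_left _ h2
  have h5 : 2 * (n * n) + 1 ≤ 3 * (n + 2) ^ 2 := by nlinarith
  rw [add_mul]
  omega

theorem up_word (E e n : ℕ) (hn : 1 ≤ n) : E * (n + 2) ^ e < 2 ^ ((E + 2 * e) * Nat.size n) := by
  have hs : 1 ≤ Nat.size n := Nat.size_pos.2 hn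
  have h1 : n < 2 ^ Nat.size n := Nat.lt_size_self n
  have h2 : 2 ≤ 2 ^ Nat.size n := by omega
  have h3 : n + 2 ≤ 2 ^ (2 * Nat.size n) := by
    rw [two_mul, pow_add]
    nlinarith
  have h4 : (n + 2) ^ e ≤ 2 ^ (2 * e * Nat.size n) := by
    refine (Nat.pow_le_pow_left h3 e).trans (le_of_eq ?_)
    rw [← pow_mul]
    congr 1
    ring
  have h5 : E < 2 ^ (E * Nat.size n) :=
    (Nat.lt_two_pow_self (n := E)).trans_le
      (Nat.pow_le_pow_right (by omega) (Nat.le_mul_of_pos_right _ hs))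
  rw [add_mul, pow_add]
  calc E * (n + 2) ^ e ≤ E * 2 ^ (2 * e * Nat.size n) := Nat.mul_le_mul_left _ h4
    _ < 2 ^ (E * Nat.size n) * 2 ^ (2 * e * Nat.size n) :=
      Nat.mul_lt_mul_of_pos_right h5 (Nat.two_pow_pos _)

theorem ram_upper
    (hR : ∀ p : Prog, ∃ (P : List Instr) (K : ℕ), (∀ M : Model, ∀ a ∈ P, M.Allows a) ∧
      ∀ (M : Model) (n : ℕ) (x : List Bool) (t : ℕ) (σ : ℕ → Word), Runs ∅ p (start x []) t σ →
        (M.modulus n = 0 ∨ K * (t + x.length + 1) < M.modulus n) →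
          ∃ (s : ℕ) (c : P310Z.Cfg), (P310Z.step M P n x)^[s] (startCfg n) = c ∧ P.length ≤ c.pc ∧
            c.time ≤ K * (t + x.length + 1) ^ 2 ∧ (c.reg 0 ≠ 0 ↔ (σ 1).head? = some true)) :
    ∃ C : ℕ, ∀ k : ℕ, 2 ≤ k → ∃ (W : ℕ) (P : List Instr) (T : ℕ → ℕ),
      RamDecides .unit P k 1 T ∧ RamDecides .log P k 1 T ∧ RamDecides (.word W) P k 1 T ∧
        (fun n : ℕ => (T n : ℝ)) =O[atTop] (fun n : ℕ => (n : ℝ) ^ (C * k)) := by
  obtain ⟨C, hC⟩ := exists_prog P310T43.pt_dec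
  refine ⟨2 * C + 2, fun k hk => ?_⟩
  obtain ⟨p, D, hp⟩ := hC k hk
  obtain ⟨P, K, hP, hK⟩ := hR p
  have key : ∀ M : Model, (∀ n : ℕ, 1 ≤ n → M.modulus n = 0 ∨
      K * (D * (n + 2) ^ (C * k) + 2 * (n * n) + 1) < M.modulus n) →
      RamDecides M P k 1 fun n => K * (D * (n + 2) ^ (C * k) + 2 * (n * n) + 1) ^ 2 := by
    intro M hM
    refine ⟨hP M, fun n hn G H => ?_⟩
    obtain ⟨σ, r, hσ⟩ := hp n _ (length_inputWord G H)
    obtain ⟨s, c, e1, e2, e3, e4⟩ :=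
      hK M n _ _ σ r (by rw [length_inputWord]; exact hM n hn)
    rw [length_inputWord] at e3
    refine ⟨s, c, e1, e2, e3, e4.trans ?_⟩
    rw [hσ, tup_eq, P310T43.dec_spec]
  refine ⟨K * (D + 3) + 2 * (C * k + 2), P, _, key _ fun _ _ => Or.inl rfl,
    key _ fun _ _ => Or.inl rfl, key _ fun n hn => Or.inr ?_,
    isBigO_of_le (D := K * (D + 3) ^ 2) fun n => ?_⟩
  · refine lt_of_le_of_lt ?_ (up_word (K * (D + 3)) (C * k + 2) n hn)
    rw [mul_assoc]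
    exact Nat.mul_le_mul_left _ (up_len D (C * k) n)
  · rw [mul_assoc]
    refine Nat.mul_le_mul_left _ ((Nat.pow_le_pow_left (up_len D (C * k) n) 2).trans ?_)
    rw [mul_pow, ← pow_mul]
    refine Nat.mul_le_mul_left _ (Nat.pow_le_pow_right (by omega) ?_)
    nlinarith

end Vale.Agent.Q310
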